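import Mathlib
import Crest.Prelude.Def_SpanningTrees

/-!
Combinatorial description of the spanning trees of a finite piece of a graph.
-/

set_option autoImplicit false

namespace Crest.Agent.Lib.SpanTree

open Crest.ProbabilityR.SpanningTrees

variable {V : Type*}

/-- `u` and `v` are joined by a chain of pairs from `A`. -/
def Linked (A : Finset (Sym2 V)) (u v : V) : Prop :=
  Relation.ReflTransGen (fun a b => s(a, b) ∈ A) u v

theorem Linked.refl (A : Finset (Sym2 V)) (u : V) : Linked A u u := Relation.ReflTransGen.refl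

theorem Linked.trans {A : Finset (Sym2 V)} {u v w : V} (h : Linked A u v) (h' : Linked A v w) :
    Linked A u w := Relation.ReflTransGen.trans h h'

theorem Linked.single {A : Finset (Sym2 V)} {u v : V} (h : s(u, v) ∈ A) : Linked A u v :=
  Relation.ReflTransGen.single h

theorem Linked.symm {A : Finset (Sym2 V)} {u v : V} (h : Linked A u v) : Linked A v u := by
  induction h with
  | refl => exact Linked.refl _ _
  | tail _ hbc ih => exact (Linked.single (by rwa [Sym2.eq_swap])).trans ih

theorem Linked.mono {A B : Finset (Sym2 V)} (hAB : A ⊆ B) {u v : V} (h : Linked A u v) :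
    Linked B u v := by
  induction h with
  | refl => exact Linked.refl _ _
  | tail _ hbc ih => exact ih.trans (Linked.single (hAB hbc))

/-- A function that agrees along pairs of `A` agrees on linked points. -/
theorem Linked.eq_of_forall {α : Sort*} {A : Finset (Sym2 V)} (x : V → α)
    (hx : ∀ a b, s(a, b) ∈ A → x a = x b) {u v : V} (h : Linked A u v) : x u = x v := by
  induction h with
  | refl => rfl
  | tail _ hbc ih => exact ih.trans (hx _ _ hbc)

theorem mem_edgesIn {G : SimpleGraph V} {S : Finset V} {a b : V} :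
    s(a, b) ∈ edgesIn G S ↔ a ∈ S ∧ b ∈ S ∧ G.Adj a b := by
  unfold edgesIn
  simp [and_assoc]

theorem edgesIn_mono {G : SimpleGraph V} {S S' : Finset V} (h : S ⊆ S') :
    edgesIn G S ⊆ edgesIn G S' := by
  intro e he
  induction e using Sym2.ind with
  | _ a b =>
    rw [mem_edgesIn] at he ⊢
    exact ⟨h he.1, h he.2.1, he.2.2⟩

theorem connected_induce_iff_linked {H : SimpleGraph V} {S : Finset V} {A : Finset (Sym2 V)}
    (hA : ∀ a b, s(a, b) ∈ A ↔ a ∈ S ∧ b ∈ S ∧ H.Adj a b) :
    (H.induce (S : Set V)).Connected ↔ S.Nonempty ∧ ∀ u ∈ S, ∀ v ∈ S, Linked A u v := by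
  constructor
  · intro h
    refine ⟨?_, ?_⟩
    · obtain ⟨⟨u, hu⟩⟩ := h.nonempty
      exact ⟨u, hu⟩
    · intro u hu v hv
      have key : ∀ (a b : (S : Set V)), (H.induce (S : Set V)).Reachable a b → Linked A a b := by
        rintro a b ⟨p⟩
        induction p with
        | nil => exact Linked.refl _ _
        | @cons x y z hxy _ ih =>
          exact (Linked.single ((hA _ _).2 ⟨x.2, y.2, hxy⟩)).trans ih
      exact key ⟨u, hu⟩ ⟨v, hv⟩ (h.preconnected _ _)
  · rintro ⟨⟨r, hr⟩, h⟩
    have : Nonempty (S : Set V) := ⟨⟨r, hr⟩⟩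
    refine ⟨fun a b => ?_⟩
    have key : ∀ v, Linked A a v → ∃ hv : v ∈ S,
        (H.induce (S : Set V)).Reachable a ⟨v, hv⟩ := by
      intro v hv
      induction hv with
      | refl => exact ⟨a.2, SimpleGraph.Reachable.refl _⟩
      | tail _ hbc ih =>
        obtain ⟨hb, hreach⟩ := ih
        obtain ⟨_, hc, hadj⟩ := (hA _ _).1 hbc
        exact ⟨hc, hreach.trans (SimpleGraph.Adj.reachable (by simpa using hadj))⟩
    obtain ⟨_, h'⟩ := key b (h a a.2 b b.2)
    exact h'

theorem connected_iff_linked_edgesIn {G : SimpleGraph V} {S : Finset V} :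
    (G.induce (S : Set V)).Connected ↔ S.Nonempty ∧ ∀ u ∈ S, ∀ v ∈ S, Linked (edgesIn G S) u v :=
  connected_induce_iff_linked fun _ _ => mem_edgesIn

theorem card_edgeSet_induce {G : SimpleGraph V} {S : Finset V} {A : Finset (Sym2 V)}
    (hA : A ⊆ edgesIn G S) :
    Nat.card ((SimpleGraph.fromEdgeSet (A : Set (Sym2 V))).induce (S : Set V)).edgeSet = A.card := by
  classical
  have h1 : Sym2.map (Subtype.val : ↥(S : Set V) → V) ''
      ((SimpleGraph.fromEdgeSet (A : Set (Sym2 V))).induce (S : Set V)).edgeSet = (A : Set (Sym2 V)) := by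
    ext e
    constructor
    · rintro ⟨e', he', rfl⟩
      induction e' using Sym2.ind with
      | _ a b =>
        simp only [SimpleGraph.mem_edgeSet, SimpleGraph.induce_adj,
          SimpleGraph.fromEdgeSet_adj] at he'
        simpa using he'.1
    · intro he
      induction e using Sym2.ind with
      | _ a b =>
        obtain ⟨ha, hb, hab⟩ := mem_edgesIn.1 (hA he)
        refine ⟨s(⟨a, ha⟩, ⟨b, hb⟩), ?_, by simp⟩
        simp only [SimpleGraph.mem_edgeSet, SimpleGraph.induce_adj, SimpleGraph.fromEdgeSet_adj]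
        exact ⟨he, hab.ne⟩
  have h2 := Set.ncard_image_of_injective
    ((SimpleGraph.fromEdgeSet (A : Set (Sym2 V))).induce (S : Set V)).edgeSet
    (Sym2.map.injective (Subtype.val_injective (p := fun x => x ∈ (S : Set V))))
  rw [h1, Set.ncard_coe_finset] at h2
  rw [h2]
  rfl

/-- Spanning trees of a piece: connected edge sets with one edge fewer than vertices. -/
theorem isSpanningTreeOn_iff {G : SimpleGraph V} {S : Finset V} {A : Finset (Sym2 V)} :
    IsSpanningTreeOn G S A ↔
      A ⊆ edgesIn G S ∧ (∀ u ∈ S, ∀ v ∈ S, Linked A u v) ∧ A.card + 1 = S.card := by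
  unfold IsSpanningTreeOn
  refine and_congr_right fun hA => ?_
  rw [SimpleGraph.isTree_iff_connected_and_card, card_edgeSet_induce hA,
    connected_induce_iff_linked (A := A)]
  · have : Nat.card (S : Set V) = S.card := by simp
    rw [this]
    constructor
    · rintro ⟨⟨_, h⟩, h'⟩
      exact ⟨h, h'⟩
    · rintro ⟨h, h'⟩
      exact ⟨⟨Finset.card_pos.1 (by omega), h⟩, h'⟩
  · intro a b
    constructor
    · intro h
      obtain ⟨ha, hb, hab⟩ := mem_edgesIn.1 (hA h)
      exact ⟨ha, hb, by simpa [SimpleGraph.fromEdgeSet_adj] using ⟨h, hab.ne⟩⟩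
    · rintro ⟨_, _, h⟩
      rw [SimpleGraph.fromEdgeSet_adj] at h
      exact h.1

open Classical in
/-- The finite set of spanning trees of the piece `S` of `G`. -/
noncomputable def trees (G : SimpleGraph V) (S : Finset V) : Finset (Finset (Sym2 V)) :=
  (edgesIn G S).powerset.filter (fun A => IsSpanningTreeOn G S A)

theorem mem_trees {G : SimpleGraph V} {S : Finset V} {A : Finset (Sym2 V)} :
    A ∈ trees G S ↔ IsSpanningTreeOn G S A := by
  classical
  unfold trees
  simp only [Finset.mem_filter, Finset.mem_powerset, and_iff_right_iff_imp]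
  exact fun h => h.1

open Classical in
theorem ustContains_eq (G : SimpleGraph V) (S : Finset V) (F : Finset (Sym2 V)) :
    ustContains G S F = (((trees G S).filter (fun A => F ⊆ A)).card : ℝ) / ((trees G S).card : ℝ) := by
  unfold ustContains
  congr 3
  ext A
  simp only [Finset.mem_filter, mem_trees, Finset.mem_powerset]
  constructor
  · rintro ⟨_, h⟩
    exact h
  · rintro ⟨h, h'⟩
    exact ⟨h.1, h, h'⟩

end Crest.Agent.Lib.SpanTree
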