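import Mathlib
import Crest.Agent.Lib.SpanTree.Basic

/-!
The weighted matrix-tree theorem for a finite piece of a graph and the resulting
non-vanishing of the spanning tree polynomial on the upper half-plane.
-/

set_option autoImplicit false

namespace Crest.Agent.Lib.SpanTree

open Crest.ProbabilityR.SpanningTrees Matrix

variable {V : Type*}

open Classical in
/-- Signed incidence of a vertex with an (arbitrarily oriented) pair. -/
noncomputable def inc (R : Type*) [CommRing R] (e : Sym2 V) (u : V) : R :=
  (if u = e.out.1 then 1 else 0) - (if u = e.out.2 then 1 else 0)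

theorem sym2_out_eq (e : Sym2 V) : s(e.out.1, e.out.2) = e := by
  exact Quot.out_eq e

theorem out_cases (a b : V) :
    ((s(a, b)).out.1 = a ∧ (s(a, b)).out.2 = b) ∨ ((s(a, b)).out.1 = b ∧ (s(a, b)).out.2 = a) := by
  have := sym2_out_eq (s(a, b))
  rw [Sym2.eq_iff] at this
  exact this

/-- The reduced weighted Laplacian with rows and columns indexed by `W`. -/
noncomputable def lap (R : Type*) [CommRing R] (W : Finset V) (E : Finset (Sym2 V))
    (z : Sym2 V → R) : Matrix W W R :=
  Matrix.of fun u v => ∑ e ∈ E, (z e * inc R e u) * inc R e v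

open Classical in
/-- The weight of a choice of one pair per row. -/
noncomputable def wt (R : Type*) [CommRing R] (W : Finset V) (p : W → Sym2 V) : R :=
  (∏ u : W, inc R (p u) u) * (Matrix.of fun (u v : W) => inc R (p u) v).det

open Classical in
theorem wt_eq_zero (R : Type*) [CommRing R] (W : Finset V) (p : W → Sym2 V)
    (hp : ¬ Function.Injective p) : wt R W p = 0 := by
  unfold wt
  obtain ⟨i, j, hij, hne⟩ := Function.not_injective_iff.1 hp
  rw [Matrix.det_zero_of_row_eq hne, mul_zero]
  funext v
  simp [hij]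

open Classical in
theorem det_lap_expand (R : Type*) [CommRing R] (W : Finset V) (E : Finset (Sym2 V))
    (z : Sym2 V → R) :
    (lap R W E z).det =
      ∑ p ∈ Fintype.piFinset (fun _ : W => E), wt R W p * ∏ e ∈ Finset.univ.image p, z e := by
  have h1 : lap R W E z =
      fun u : W => ∑ e ∈ E, (z e * inc R e u) • (fun v : W => inc R e v) := by
    funext u v
    simp [lap, Finset.sum_apply]
  have h2 : (lap R W E z).det = (Matrix.detRowAlternating (n := W) (R := R)).toMultilinearMap
      (fun u : W => ∑ e ∈ E, (z e * inc R e u) • (fun v : W => inc R e v)) := by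
    rw [h1]; rfl
  rw [h2, MultilinearMap.map_sum_finset]
  refine Finset.sum_congr rfl fun p _ => ?_
  rw [MultilinearMap.map_smul_univ]
  by_cases hp : Function.Injective p
  · rw [Finset.prod_image (fun a _ b _ h => hp h), Finset.prod_mul_distrib, wt, smul_eq_mul]
    have : (Matrix.detRowAlternating (n := W) (R := R)).toMultilinearMap
        (fun u v : W => inc R (p u) v) = (Matrix.of fun (u v : W) => inc R (p u) v).det := rfl
    rw [this]
    ring
  · rw [wt_eq_zero R W p hp, zero_mul, smul_eq_mul]
    obtain ⟨i, j, hij, hne⟩ := Function.not_injective_iff.1 hp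
    have : (Matrix.detRowAlternating (n := W) (R := R)).toMultilinearMap
        (fun u v : W => inc R (p u) v) = (Matrix.of fun (u v : W) => inc R (p u) v).det := rfl
    rw [this, Matrix.det_zero_of_row_eq hne, mul_zero]
    funext v
    simp [hij]

open Classical in
/-- Cauchy-Binet in the form needed: the coefficient of `z ^ T`. -/
theorem det_lap_eq_sum (R : Type*) [CommRing R] (W : Finset V) (E : Finset (Sym2 V))
    (z : Sym2 V → R) :
    (lap R W E z).det = ∑ T ∈ E.powerset,
      (if T.card = W.card then (lap R W T 1).det else 0) * ∏ e ∈ T, z e := by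
  rw [det_lap_expand, ← Finset.sum_fiberwise_of_maps_to (s := Fintype.piFinset (fun _ : W => E))
    (t := E.powerset) (g := fun p => Finset.univ.image p)]
  · refine Finset.sum_congr rfl fun T hT => ?_
    rw [Finset.mem_powerset] at hT
    have h1 : ∑ p ∈ Fintype.piFinset (fun _ : W => E) with Finset.univ.image p = T,
        wt R W p * ∏ e ∈ Finset.univ.image p, z e =
        (∑ p ∈ Fintype.piFinset (fun _ : W => E) with Finset.univ.image p = T, wt R W p) *
          ∏ e ∈ T, z e := by
      rw [Finset.sum_mul]
      refine Finset.sum_congr rfl fun p hp => ?_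
      rw [(Finset.mem_filter.1 hp).2]
    rw [h1]
    congr 1
    split_ifs with hc
    · rw [det_lap_expand]
      simp only [Pi.one_apply, Finset.prod_const_one, mul_one]
      refine Finset.sum_subset ?_ ?_
      · intro p hp
        rw [Finset.mem_filter] at hp
        rw [Fintype.mem_piFinset]
        intro u
        rw [← hp.2]
        exact Finset.mem_image_of_mem _ (Finset.mem_univ _)
      · intro p hp hp'
        apply wt_eq_zero
        intro hinj
        apply hp'
        rw [Fintype.mem_piFinset] at hp
        rw [Finset.mem_filter, Fintype.mem_piFinset]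
        refine ⟨fun u => hT (hp u), ?_⟩
        apply Finset.eq_of_subset_of_card_le
        · intro e he
          obtain ⟨u, _, rfl⟩ := Finset.mem_image.1 he
          exact hp u
        · rw [Finset.card_image_of_injective _ hinj, hc]
          simp
    · refine Finset.sum_eq_zero fun p hp => ?_
      apply wt_eq_zero
      intro hinj
      apply hc
      rw [← (Finset.mem_filter.1 hp).2, Finset.card_image_of_injective _ hinj]
      simp
  · intro p hp
    rw [Fintype.mem_piFinset] at hp
    rw [Finset.mem_powerset]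
    intro e he
    obtain ⟨u, _, rfl⟩ := Finset.mem_image.1 he
    exact hp u

open Classical in
/-- Extension by zero of a vector indexed by `W`. -/
noncomputable def ext0 {R : Type*} [CommRing R] (W : Finset V) (x : W → R) (a : V) : R :=
  if h : a ∈ W then x ⟨a, h⟩ else 0

open Classical in
theorem sum_inc_mul {R : Type*} [CommRing R] (W : Finset V) (x : W → R) (e : Sym2 V) :
    ∑ u : W, inc R e u * x u = ext0 W x e.out.1 - ext0 W x e.out.2 := by
  have key : ∀ a : V, ∑ u : W, (if (u : V) = a then (1 : R) else 0) * x u = ext0 W x a := by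
    intro a
    unfold ext0
    split_ifs with h
    · rw [Finset.sum_eq_single ⟨a, h⟩]
      · simp
      · intro b _ hb
        have : (b : V) ≠ a := fun h' => hb (Subtype.ext h')
        simp [this]
      · simp
    · refine Finset.sum_eq_zero fun u _ => ?_
      have : (u : V) ≠ a := fun h' => h (h' ▸ u.2)
      simp [this]
  simp only [inc, sub_mul, Finset.sum_sub_distrib, key]

theorem lap_mulVec {R : Type*} [CommRing R] (W : Finset V) (E : Finset (Sym2 V)) (z : Sym2 V → R)
    (x : W → R) (u : W) :
    (lap R W E z *ᵥ x) u =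
      ∑ e ∈ E, (z e * inc R e u) * (ext0 W x e.out.1 - ext0 W x e.out.2) := by
  simp only [Matrix.mulVec, dotProduct, lap, Matrix.of_apply, Finset.sum_mul]
  rw [Finset.sum_comm]
  refine Finset.sum_congr rfl fun e _ => ?_
  rw [← sum_inc_mul, Finset.mul_sum]
  refine Finset.sum_congr rfl fun v _ => ?_
  ring

open Classical in
theorem det_lap_eq_zero_of_not_linked (S : Finset V) (r : V) (T : Finset (Sym2 V))
    (hT : ∀ a b, s(a, b) ∈ T → a ∈ S ∧ b ∈ S) (u : V) (hu : u ∈ S) (hru : ¬ Linked T r u) :
    (lap ℂ (S.erase r) T 1).det = 0 := by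
  rw [← Matrix.exists_mulVec_eq_zero_iff]
  let x : S.erase r → ℂ := fun v => if Linked T r v then 0 else 1
  have hx : ∀ a ∈ S, ext0 (S.erase r) x a = if Linked T r a then 0 else 1 := by
    intro a ha
    unfold ext0
    split_ifs with h h' h'
    · simp [x, h']
    · simp [x, h']
    · rfl
    · exfalso
      apply h
      rw [Finset.mem_erase]
      refine ⟨?_, ha⟩
      rintro rfl
      exact h' (Linked.refl _ _)
  refine ⟨x, ?_, ?_⟩
  · intro h0
    have hur : u ≠ r := by
      rintro rfl
      exact hru (Linked.refl _ _)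
    have := congrFun h0 ⟨u, Finset.mem_erase.2 ⟨hur, hu⟩⟩
    simp [x, hru] at this
  · funext v
    rw [lap_mulVec]
    refine Finset.sum_eq_zero fun e he => ?_
    have he' : s(e.out.1, e.out.2) ∈ T := by rwa [sym2_out_eq]
    obtain ⟨h1, h2⟩ := hT _ _ he'
    rw [hx _ h1, hx _ h2]
    have : Linked T r e.out.1 ↔ Linked T r e.out.2 :=
      ⟨fun h => h.trans (Linked.single he'), fun h => h.trans (Linked.single he').symm⟩
    simp [this]

open Classical in
theorem det_lap_int_of_linked (S : Finset V) (r : V) (T : Finset (Sym2 V))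
    (hcard : T.card = (S.erase r).card) (hlink : ∀ u ∈ S, Linked T r u) :
    (lap ℤ (S.erase r) T 1).det = 1 := by
  set W := S.erase r with hW
  have hc : Fintype.card W = Fintype.card T := by simp [hcard]
  let ε : W ≃ T := Fintype.equivOfCardEq hc
  let B : Matrix W W ℤ := Matrix.of fun u v => inc ℤ ((ε v : T) : Sym2 V) (u : V)
  have hB : lap ℤ W T 1 = B * Bᵀ := by
    ext u v
    simp only [lap, Matrix.of_apply, Pi.one_apply, one_mul, Matrix.mul_apply, B,
      Matrix.transpose_apply]
    rw [← Finset.sum_coe_sort T (fun e => inc ℤ e (u : V) * inc ℤ e (v : V))]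
    exact (Equiv.sum_comp ε
      (fun e : T => inc ℤ (e : Sym2 V) (u : V) * inc ℤ (e : Sym2 V) (v : V))).symm
  have hsurj : ∀ v, Linked T r v → ∃ y : W → ℤ, ∀ u : W,
      (B *ᵥ y) u = (if (u : V) = v then 1 else 0) - (if (u : V) = r then 1 else 0) := by
    intro v hv
    induction hv with
    | refl => exact ⟨0, fun u => by simp⟩
    | @tail b c _ hbc ih =>
      obtain ⟨y, hy⟩ := ih
      have hcol : ∀ u : W, (B *ᵥ (Pi.single (ε.symm ⟨_, hbc⟩) 1)) u = inc ℤ s(b, c) u := by
        intro u
        simp [B]
      rcases out_cases b c with ⟨h1, h2⟩ | ⟨h1, h2⟩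
      · refine ⟨y - Pi.single (ε.symm ⟨_, hbc⟩) 1, fun u => ?_⟩
        rw [Matrix.mulVec_sub, Pi.sub_apply, hy, hcol, inc, h1, h2]
        ring
      · refine ⟨y + Pi.single (ε.symm ⟨_, hbc⟩) 1, fun u => ?_⟩
        rw [Matrix.mulVec_add, Pi.add_apply, hy, hcol, inc, h1, h2]
        ring
  have hcols : ∀ v : W, ∃ y : W → ℤ, ∀ u : W, (B *ᵥ y) u = (1 : Matrix W W ℤ) u v := by
    intro v
    obtain ⟨y, hy⟩ := hsurj v (hlink v (Finset.mem_of_mem_erase v.2))
    refine ⟨y, fun u => ?_⟩
    have hur : (u : V) ≠ r := (Finset.mem_erase.1 u.2).1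
    rw [hy, if_neg hur, sub_zero, Matrix.one_apply]
    by_cases huv : u = v
    · rw [if_pos huv, if_pos (congrArg Subtype.val huv)]
    · rw [if_neg huv, if_neg (fun h => huv (Subtype.ext h))]
  choose Y hY using hcols
  have hBC : B * (Matrix.of fun u v => Y v u) = 1 := by
    ext u v
    rw [← hY v u]
    simp [Matrix.mul_apply, Matrix.mulVec, dotProduct]
  have hunit : IsUnit B.det := Matrix.isUnit_det_of_right_inverse hBC
  rw [hB, Matrix.det_mul, Matrix.det_transpose]
  rcases Int.isUnit_iff.1 hunit with h | h <;> simp [h]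

open Classical in
theorem det_lap_of_linked (S : Finset V) (r : V) (T : Finset (Sym2 V))
    (hcard : T.card = (S.erase r).card) (hlink : ∀ u ∈ S, Linked T r u) :
    (lap ℂ (S.erase r) T 1).det = 1 := by
  have h := det_lap_int_of_linked S r T hcard hlink
  have h2 : lap ℂ (S.erase r) T 1 = (Int.castRingHom ℂ).mapMatrix (lap ℤ (S.erase r) T 1) := by
    ext u v
    simp [lap, inc]
  rw [h2, ← RingHom.map_det, h, map_one]

open Classical in
/-- The weighted matrix-tree theorem. -/
theorem det_lap_eq_treePoly (G : SimpleGraph V) (S : Finset V) (r : V) (hr : r ∈ S)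
    (z : Sym2 V → ℂ) :
    (lap ℂ (S.erase r) (edgesIn G S) z).det = ∑ A ∈ trees G S, ∏ e ∈ A, z e := by
  rw [det_lap_eq_sum, trees, Finset.sum_filter]
  refine Finset.sum_congr rfl fun T hT => ?_
  rw [Finset.mem_powerset] at hT
  have hcS : (S.erase r).card + 1 = S.card := Finset.card_erase_add_one hr
  by_cases hc : T.card = (S.erase r).card
  · rw [if_pos hc]
    by_cases hl : ∀ u ∈ S, Linked T r u
    · rw [det_lap_of_linked S r T hc hl, one_mul, if_pos]
      rw [isSpanningTreeOn_iff]
      exact ⟨hT, fun u hu v hv => (hl u hu).symm.trans (hl v hv), by omega⟩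
    · have hl' := hl
      push Not at hl'
      obtain ⟨u, hu, hru⟩ := hl'
      rw [det_lap_eq_zero_of_not_linked S r T _ u hu hru, zero_mul, if_neg]
      · rw [isSpanningTreeOn_iff]
        rintro ⟨_, h, _⟩
        exact hru (h r hr u hu)
      · intro a b hab
        have := mem_edgesIn.1 (hT hab)
        exact ⟨this.1, this.2.1⟩
  · rw [if_neg hc, zero_mul, if_neg]
    rw [isSpanningTreeOn_iff]
    rintro ⟨_, _, h⟩
    omega

open Classical in
/-- The spanning tree polynomial of a connected finite piece has no zero with all edge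
variables in the open upper half-plane. -/
theorem treePoly_ne_zero' (G : SimpleGraph V) (S : Finset V)
    (hS : (G.induce (S : Set V)).Connected) (z : Sym2 V → ℂ)
    (hz : ∀ e ∈ edgesIn G S, 0 < (z e).im ∨ z e = 1) :
    ∑ A ∈ trees G S, ∏ e ∈ A, z e ≠ 0 := by
  obtain ⟨⟨r, hr⟩, hl⟩ := connected_iff_linked_edgesIn.1 hS
  rw [← det_lap_eq_treePoly G S r hr z]
  set W := S.erase r with hW
  intro h0
  obtain ⟨x, hx0, hx⟩ := Matrix.exists_mulVec_eq_zero_iff.2 h0
  let d : Sym2 V → ℂ := fun e => ext0 W x e.out.1 - ext0 W x e.out.2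
  have h1 : ∑ e ∈ edgesIn G S, z e * ((Complex.normSq (d e) : ℝ) : ℂ) = 0 := by
    have h2 : ∑ u : W, (starRingEnd ℂ) (x u) * (lap ℂ W (edgesIn G S) z *ᵥ x) u = 0 := by
      simp [hx]
    rw [← h2]
    simp only [lap_mulVec, Finset.mul_sum]
    rw [Finset.sum_comm]
    refine Finset.sum_congr rfl fun e _ => ?_
    have h3 : (starRingEnd ℂ) (d e) = ∑ u : W, inc ℂ e u * (starRingEnd ℂ) (x u) := by
      have : d e = ∑ u : W, inc ℂ e u * x u := (sum_inc_mul W x e).symm
      rw [this, map_sum]
      refine Finset.sum_congr rfl fun u _ => ?_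
      rw [map_mul]
      congr 1
      unfold inc
      split_ifs <;> simp
    rw [Complex.normSq_eq_conj_mul_self, h3, Finset.sum_mul, Finset.mul_sum]
    refine Finset.sum_congr rfl fun u _ => ?_
    simp only [d]
    ring
  have h2 : ∑ e ∈ edgesIn G S, (z e).im * Complex.normSq (d e) = 0 := by
    have := congrArg Complex.im h1
    simpa [Complex.im_sum] using this
  rw [Finset.sum_eq_zero_iff_of_nonneg
    (fun e he => mul_nonneg (by rcases hz e he with h | h; exacts [h.le, by simp [h]])
      (Complex.normSq_nonneg _))] at h2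
  have h2' : ∑ e ∈ edgesIn G S, Complex.normSq (d e) = 0 := by
    have h1' := congrArg Complex.re h1
    simp only [Complex.re_sum, Complex.mul_re, Complex.ofReal_re, Complex.ofReal_im, mul_zero,
      sub_zero, Complex.zero_re] at h1'
    rw [← h1']
    refine Finset.sum_congr rfl fun e he => ?_
    rcases hz e he with h | h
    · rcases mul_eq_zero.1 (h2 e he) with h' | h'
      · exact absurd h' h.ne'
      · simp [h']
    · simp [h]
  rw [Finset.sum_eq_zero_iff_of_nonneg (fun e _ => Complex.normSq_nonneg _)] at h2'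
  have h3 : ∀ a b, s(a, b) ∈ edgesIn G S → ext0 W x a = ext0 W x b := by
    intro a b hab
    have h5 : d s(a, b) = 0 := Complex.normSq_eq_zero.1 (h2' _ hab)
    simp only [d] at h5
    rcases out_cases a b with ⟨h6, h7⟩ | ⟨h6, h7⟩
    · rw [h6, h7] at h5; exact sub_eq_zero.1 h5
    · rw [h6, h7] at h5; exact (sub_eq_zero.1 h5).symm
  apply hx0
  funext u
  have h4 := Linked.eq_of_forall (ext0 W x) h3 (hl r hr u (Finset.mem_of_mem_erase u.2))
  have h5 : ext0 W x r = 0 := by simp [ext0, hW]
  have h6 : ext0 W x u = x u := by simp [ext0]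
  rw [Pi.zero_apply, ← h6, ← h4, h5]

theorem treePoly_ne_zero (G : SimpleGraph V) (S : Finset V)
    (hS : (G.induce (S : Set V)).Connected) (z : Sym2 V → ℂ)
    (hz : ∀ e ∈ edgesIn G S, 0 < (z e).im) : ∑ A ∈ trees G S, ∏ e ∈ A, z e ≠ 0 :=
  treePoly_ne_zero' G S hS z fun e he => Or.inl (hz e he)

theorem trees_nonempty (G : SimpleGraph V) (S : Finset V)
    (hS : (G.induce (S : Set V)).Connected) : (trees G S).Nonempty := by
  by_contra h
  rw [Finset.not_nonempty_iff_eq_empty] at h
  have := treePoly_ne_zero G S hS (fun _ => Complex.I) (fun _ _ => by simp)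
  simp [h] at this

end Crest.Agent.Lib.SpanTree
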