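import Mathlib

/-!
Multi-affine polynomials with nonnegative coefficients and no zero on the upper half-plane:
the Rayleigh inequality, log-submodularity on the positive orthant, and negative association of
the events "contains `B`" and "meets `D`".
-/

set_option autoImplicit false

namespace Crest.Agent.Lib.SpanTree

open Filter Topology

variable {ι : Type*} [DecidableEq ι]

/-- Generating polynomial of the weights `w` on subsets of `F` (complex arguments). -/
noncomputable def gp (F : Finset ι) (w : Finset ι → ℝ) (z : ι → ℂ) : ℂ :=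
  ∑ S ∈ F.powerset, (w S : ℂ) * ∏ i ∈ S, z i

/-- Generating polynomial of the weights `w` on subsets of `F` (real arguments). -/
noncomputable def gr (F : Finset ι) (w : Finset ι → ℝ) (x : ι → ℝ) : ℝ :=
  ∑ S ∈ F.powerset, w S * ∏ i ∈ S, x i

/-- No zero with all variables in the open upper half-plane. -/
def Stable (F : Finset ι) (w : Finset ι → ℝ) : Prop :=
  ∀ z : ι → ℂ, (∀ i ∈ F, 0 < (z i).im) → gp F w z ≠ 0

omit [DecidableEq ι] in
theorem gp_ofReal (F : Finset ι) (w : Finset ι → ℝ) (x : ι → ℝ) :
    gp F w (fun i => (x i : ℂ)) = (gr F w x : ℂ) := by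
  simp [gp, gr]

theorem prod_update_affine {R : Type*} [CommRing R] (S : Finset ι) (z : ι → R) (e : ι) (a : R) :
    ∏ i ∈ S, Function.update z e a i =
      ∏ i ∈ S, Function.update z e 0 i +
        a * (∏ i ∈ S, Function.update z e 1 i - ∏ i ∈ S, Function.update z e 0 i) := by
  by_cases he : e ∈ S
  · simp only [Finset.prod_update_of_mem he]
    ring
  · simp only [Finset.prod_update_of_notMem he]
    ring

theorem gp_update (F : Finset ι) (w : Finset ι → ℝ) (z : ι → ℂ) (e : ι) (a : ℂ) :
    gp F w (Function.update z e a) = gp F w (Function.update z e 0) +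
      a * (gp F w (Function.update z e 1) - gp F w (Function.update z e 0)) := by
  simp only [gp, ← Finset.sum_sub_distrib, Finset.mul_sum, ← Finset.sum_add_distrib]
  refine Finset.sum_congr rfl fun S _ => ?_
  rw [prod_update_affine S z e a]
  ring

theorem gr_update (F : Finset ι) (w : Finset ι → ℝ) (x : ι → ℝ) (e : ι) (a : ℝ) :
    gr F w (Function.update x e a) = gr F w (Function.update x e 0) +
      a * (gr F w (Function.update x e 1) - gr F w (Function.update x e 0)) := by
  simp only [gr, ← Finset.sum_sub_distrib, Finset.mul_sum, ← Finset.sum_add_distrib]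
  refine Finset.sum_congr rfl fun S _ => ?_
  rw [prod_update_affine S x e a]
  ring

omit [DecidableEq ι] in
theorem continuous_gp (F : Finset ι) (w : Finset ι → ℝ) : Continuous (gp F w) := by
  unfold gp
  fun_prop

theorem Stable.im_nonneg_open {F : Finset ι} {w : Finset ι → ℝ} (h : Stable F w) (e : ι)
    (z : ι → ℂ) (hz : ∀ i ∈ F, 0 < (z i).im) :
    0 ≤ (gp F w (Function.update z e 0) *
      (starRingEnd ℂ) (gp F w (Function.update z e 1) - gp F w (Function.update z e 0))).im := by
  by_contra hneg
  push Not at hneg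
  set A := gp F w (Function.update z e 0) with hA
  set B := gp F w (Function.update z e 1) - gp F w (Function.update z e 0) with hB
  have hB0 : B ≠ 0 := by
    intro h0
    simp [h0] at hneg
  have hpos : 0 < Complex.normSq B := Complex.normSq_pos.2 hB0
  have him : 0 < (-A / B).im := by
    rw [Complex.div_im]
    simp only [Complex.mul_im, Complex.conj_re, Complex.conj_im] at hneg
    simp only [Complex.neg_im, Complex.neg_re]
    rw [← sub_div]
    apply div_pos _ hpos
    linarith
  apply h (Function.update z e (-A / B))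
  · intro i hi
    by_cases hie : i = e
    · subst hie
      simpa using him
    · rw [Function.update_of_ne hie]
      exact hz i hi
  · rw [gp_update, ← hA]
    change A + -A / B * B = 0
    field_simp
    ring

theorem Stable.im_nonneg {F : Finset ι} {w : Finset ι → ℝ} (h : Stable F w) (e : ι)
    (z : ι → ℂ) (hz : ∀ i ∈ F, 0 ≤ (z i).im) :
    0 ≤ (gp F w (Function.update z e 0) *
      (starRingEnd ℂ) (gp F w (Function.update z e 1) - gp F w (Function.update z e 0))).im := by
  let Ψ : (ι → ℂ) → ℝ := fun z => (gp F w (Function.update z e 0) *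
      (starRingEnd ℂ) (gp F w (Function.update z e 1) - gp F w (Function.update z e 0))).im
  have hc := continuous_gp F w
  have hΨ : Continuous Ψ := by
    refine Complex.continuous_im.comp (Continuous.mul ?_ (Complex.continuous_conj.comp
      (Continuous.sub ?_ ?_)))
    · exact hc.comp (continuous_id.update e continuous_const)
    · exact hc.comp (continuous_id.update e continuous_const)
    · exact hc.comp (continuous_id.update e continuous_const)
  have h1 : Continuous fun ε : ℝ => Ψ (fun i => z i + ε * Complex.I) := by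
    refine hΨ.comp ?_
    fun_prop
  have h2 : Tendsto (fun ε : ℝ => Ψ (fun i => z i + ε * Complex.I)) (𝓝[>] 0) (𝓝 (Ψ z)) := by
    have := (h1.tendsto 0).mono_left (nhdsWithin_le_nhds (s := Set.Ioi 0))
    simpa using this
  refine ge_of_tendsto h2 ?_
  filter_upwards [self_mem_nhdsWithin] with ε hε
  apply h.im_nonneg_open
  intro i hi
  have := hz i hi
  have hε' : 0 < ε := hε
  simp only [Complex.add_im, Complex.mul_im, Complex.ofReal_re, Complex.I_im, mul_one,
    Complex.ofReal_im, Complex.I_re, mul_zero, add_zero]
  linarith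

/-- The Rayleigh inequality in two coordinates. -/
theorem Stable.rayleigh {F : Finset ι} {w : Finset ι → ℝ} (h : Stable F w) {e f : ι} (hef : e ≠ f)
    (x : ι → ℝ) {a a' b b' : ℝ} (ha : a ≤ a') (hb : b ≤ b') :
    gr F w (Function.update (Function.update x f b') e a') *
        gr F w (Function.update (Function.update x f b) e a) ≤
      gr F w (Function.update (Function.update x f b) e a') *
        gr F w (Function.update (Function.update x f b') e a) := by
  let P : ℝ → ℝ → ℝ := fun a b => gr F w (Function.update (Function.update x f b) e a)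
  have hP1 : ∀ a b, P a b = P 0 b + a * (P 1 b - P 0 b) := fun a b => gr_update _ _ _ _ _
  have hP2 : ∀ a b, P a b = P a 0 + b * (P a 1 - P a 0) := by
    intro a b
    simp only [P, Function.update_comm hef.symm]
    exact gr_update _ _ _ _ _
  have hC : ∀ a : ℝ, gp F w (Function.update (Function.update (fun i => (x i : ℂ)) f Complex.I) e a)
      = (P a 0 : ℂ) + Complex.I * ((P a 1 : ℂ) - (P a 0 : ℂ)) := by
    intro a
    have hr : ∀ b : ℝ, gp F w (Function.update (Function.update (fun i => (x i : ℂ)) e a) f b)
        = (P a b : ℂ) := by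
      intro b
      simp only [P]
      rw [← gp_ofReal, Function.update_comm hef.symm]
      congr 1
      funext i
      by_cases hif : i = f
      · subst hif; simp
      · by_cases hie : i = e
        · subst hie; simp [Function.update_of_ne hif]
        · simp [Function.update_of_ne hif, Function.update_of_ne hie]
    rw [Function.update_comm hef.symm, gp_update]
    have h0 := hr 0
    have h1 := hr 1
    simp only [Complex.ofReal_zero, Complex.ofReal_one] at h0 h1
    rw [h0, h1]
  have key := h.im_nonneg e (Function.update (fun i => (x i : ℂ)) f Complex.I) (by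
    intro i _
    by_cases hif : i = f
    · subst hif; simp
    · simp [Function.update_of_ne hif])
  have h0 := hC 0
  have h1 := hC 1
  simp only [Complex.ofReal_zero, Complex.ofReal_one] at h0 h1
  rw [h0, h1] at key
  simp only [Complex.mul_im, Complex.add_re, Complex.ofReal_re, Complex.mul_re, Complex.I_re,
    Complex.sub_re, zero_mul, Complex.I_im, Complex.sub_im, Complex.ofReal_im, sub_self, mul_zero,
    add_zero, Complex.conj_im, Complex.add_im, one_mul, zero_add, Complex.conj_re] at key
  change P a' b' * P a b ≤ P a' b * P a b'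
  rw [hP1 a' b', hP1 a b, hP1 a' b, hP1 a b', hP2 0 b', hP2 1 b', hP2 0 b, hP2 1 b]
  have h3 := mul_nonneg (mul_nonneg (sub_nonneg.2 ha) (sub_nonneg.2 hb)) key
  nlinarith [h3]

omit [DecidableEq ι] in
theorem Stable.gr_pos {F : Finset ι} {w : Finset ι → ℝ} (h : Stable F w)
    (hw : ∀ S, 0 ≤ w S) (x : ι → ℝ) (hx : ∀ i, 0 < x i) : 0 < gr F w x := by
  have h1 : ∃ S ∈ F.powerset, w S ≠ 0 := by
    by_contra hcon
    push Not at hcon
    apply h (fun _ => Complex.I) (fun _ _ => by simp)
    unfold gp
    exact Finset.sum_eq_zero fun S hS => by simp [hcon S hS]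
  obtain ⟨S, hS, hwS⟩ := h1
  refine Finset.sum_pos' (fun T _ => mul_nonneg (hw T) (Finset.prod_nonneg fun i _ => (hx i).le))
    ⟨S, hS, mul_pos (lt_of_le_of_ne (hw S) hwS.symm) (Finset.prod_pos fun i _ => hx i)⟩

theorem update_pos {x : ι → ℝ} (hx : ∀ i, 0 < x i) (e : ι) {a : ℝ} (ha : 0 < a) (i : ι) :
    0 < Function.update x e a i := by
  by_cases hie : i = e
  · subst hie; simpa using ha
  · rw [Function.update_of_ne hie]; exact hx i

theorem Stable.ratio_anti {F : Finset ι} {w : Finset ι → ℝ} (h : Stable F w)
    (hw : ∀ S, 0 ≤ w S) (e : ι) {a a' : ℝ} (ha : 0 < a) (haa : a ≤ a') (x : ι → ℝ)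
    (hx : ∀ i, 0 < x i) (D : Finset ι) (heD : e ∉ D) (y : ι → ℝ) (hxy : ∀ i, x i ≤ y i)
    (hD : ∀ i, i ∉ D → y i = x i) :
    gr F w (Function.update y e a') / gr F w (Function.update y e a) ≤
      gr F w (Function.update x e a') / gr F w (Function.update x e a) := by
  induction D using Finset.induction_on generalizing y with
  | empty =>
    have : y = x := funext fun i => hD i (Finset.notMem_empty i)
    rw [this]
  | insert f D hfD ih =>
    have hef : e ≠ f := fun h' => heD (h' ▸ Finset.mem_insert_self _ _)
    have hy : ∀ i, 0 < y i := fun i => (hx i).trans_le (hxy i)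
    have h1 := ih (fun h' => heD (Finset.mem_insert_of_mem h')) (Function.update y f (x f))
      (by
        intro i
        by_cases hif : i = f
        · subst hif; simp
        · rw [Function.update_of_ne hif]; exact hxy i)
      (by
        intro i hi
        by_cases hif : i = f
        · subst hif; simp
        · rw [Function.update_of_ne hif]
          exact hD i (by simp [hif, hi]))
    refine le_trans ?_ h1
    have h2 := h.rayleigh hef y haa (hxy f)
    rw [Function.update_eq_self] at h2
    rw [div_le_div_iff₀ (h.gr_pos hw _ (update_pos hy e ha))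
      (h.gr_pos hw _ (update_pos (update_pos hy f (hx f)) e ha))]
    exact h2

/-- Log-submodularity on the positive orthant. -/
theorem Stable.submod {F : Finset ι} {w : Finset ι → ℝ} (h : Stable F w)
    (hw : ∀ S, 0 ≤ w S) (x : ι → ℝ) (hx : ∀ i, 0 < x i) (B D : Finset ι) (hBD : Disjoint B D)
    (u v : ι → ℝ) (hxu : ∀ i, x i ≤ u i) (hxv : ∀ i, x i ≤ v i)
    (hB : ∀ i, i ∉ B → u i = x i) (hD : ∀ i, i ∉ D → v i = x i) :
    gr F w (u ⊔ v) * gr F w x ≤ gr F w u * gr F w v := by
  induction B using Finset.induction_on generalizing u with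
  | empty =>
    have : u = x := funext fun i => hB i (Finset.notMem_empty i)
    rw [this, sup_eq_right.2 hxv, mul_comm]
  | insert e B heB ih =>
    have heD : e ∉ D := Finset.disjoint_left.1 hBD (Finset.mem_insert_self _ _)
    have hu : ∀ i, 0 < u i := fun i => (hx i).trans_le (hxu i)
    set u' := Function.update u e (x e) with hu'
    have hxu' : ∀ i, x i ≤ u' i := by
      intro i
      by_cases hie : i = e
      · subst hie; simp [hu']
      · rw [hu', Function.update_of_ne hie]; exact hxu i
    have hu'pos : ∀ i, 0 < u' i := fun i => (hx i).trans_le (hxu' i)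
    have h1 := ih (Finset.disjoint_of_subset_left (Finset.subset_insert _ _) hBD) u' hxu'
      (by
        intro i hi
        by_cases hie : i = e
        · subst hie; simp [hu']
        · rw [hu', Function.update_of_ne hie]
          exact hB i (by simp [hie, hi]))
    have h2 := h.ratio_anti hw e (hx e) (hxu e) u' hu'pos D heD (u' ⊔ v)
      (fun i => le_sup_left) (fun i hi => by
        simp only [Pi.sup_apply]
        rw [hD i hi]
        exact sup_eq_left.2 (hxu' i))
    have e1 : Function.update (u' ⊔ v) e (u e) = u ⊔ v := by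
      funext i
      by_cases hie : i = e
      · subst hie
        simp only [Function.update_self, Pi.sup_apply]
        rw [hD i heD]
        exact (sup_eq_left.2 (hxu i)).symm
      · simp [hu', Function.update_of_ne hie]
    have e2 : Function.update (u' ⊔ v) e (x e) = u' ⊔ v := by
      funext i
      by_cases hie : i = e
      · subst hie
        simp only [Function.update_self, Pi.sup_apply, hu']
        rw [hD i heD, sup_idem]
      · simp [Function.update_of_ne hie]
    have e3 : Function.update u' e (u e) = u := by simp [hu']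
    have e4 : Function.update u' e (x e) = u' := by simp [hu']
    rw [e1, e2, e3, e4] at h2
    have p1 := h.gr_pos hw u' hu'pos
    have p2 := h.gr_pos hw (u' ⊔ v) (fun i => (hu'pos i).trans_le le_sup_left)
    have p3 := h.gr_pos hw x hx
    have p4 := h.gr_pos hw u hu
    rw [div_le_div_iff₀ p2 p1] at h2
    have h3 : gr F w (u ⊔ v) * gr F w x * gr F w u' ≤ gr F w u * gr F w v * gr F w u' := by
      calc gr F w (u ⊔ v) * gr F w x * gr F w u' = (gr F w (u ⊔ v) * gr F w u') * gr F w x := by
            ring
        _ ≤ (gr F w u * gr F w (u' ⊔ v)) * gr F w x := by gcongr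
        _ = gr F w u * (gr F w (u' ⊔ v) * gr F w x) := by ring
        _ ≤ gr F w u * (gr F w u' * gr F w v) := by gcongr
        _ = gr F w u * gr F w v * gr F w u' := by ring
    exact le_of_mul_le_mul_right h3 p1

/-- Negative association of "contains `B`" and "meets `D`". -/
theorem Stable.neg_assoc {F : Finset ι} {w : Finset ι → ℝ} (h : Stable F w)
    (hw : ∀ S, 0 ≤ w S) (B D : Finset ι) (hBD : Disjoint B D) :
    (∑ A ∈ F.powerset with B ⊆ A, w A) * (∑ A ∈ F.powerset with Disjoint A D, w A) ≤
      (∑ A ∈ F.powerset with B ⊆ A ∧ Disjoint A D, w A) * ∑ A ∈ F.powerset, w A := by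
  let Φ : ℝ → ℝ → ℝ := fun δ ε => ∑ A ∈ F.powerset, w A * (δ ^ (B \ A).card * ε ^ (A ∩ D).card)
  let X : ℝ → ℝ → ι → ℝ := fun s t i => if i ∈ B then s else if i ∈ D then t else 1
  have hX : ∀ δ ε : ℝ, 0 < δ → Φ δ ε = δ ^ B.card * gr F w (X δ⁻¹ ε) := by
    intro δ ε hδ
    simp only [Φ, gr, Finset.mul_sum]
    refine Finset.sum_congr rfl fun A _ => ?_
    have h1 : ∏ i ∈ A, X δ⁻¹ ε i = δ⁻¹ ^ (A ∩ B).card * ε ^ (A ∩ D).card := by
      have : ∀ i, X δ⁻¹ ε i = (if i ∈ B then δ⁻¹ else 1) * (if i ∈ D then ε else 1) := by
        intro i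
        simp only [X]
        by_cases hiB : i ∈ B
        · have : i ∉ D := Finset.disjoint_left.1 hBD hiB
          simp [hiB, this]
        · simp [hiB]
      simp only [this, Finset.prod_mul_distrib, Finset.prod_ite_mem, Finset.prod_const]
    have h2 : B.card = (B \ A).card + (A ∩ B).card := by
      rw [Finset.inter_comm, Finset.card_sdiff_add_card_inter]
    rw [h1, h2, pow_add, inv_pow]
    have : δ ^ (A ∩ B).card ≠ 0 := pow_ne_zero _ hδ.ne'
    field_simp
  have hineq : ∀ δ : ℝ, 0 < δ → δ ≤ 1 → Φ δ 1 * Φ 1 δ ≤ Φ δ δ * Φ 1 1 := by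
    intro δ hδ hδ1
    have hinv : 1 ≤ δ⁻¹ := (one_le_inv₀ hδ).2 hδ1
    have := h.submod hw (X 1 δ) (by
        intro i; simp only [X]; split_ifs <;> positivity) B D hBD (X δ⁻¹ δ) (X 1 1)
      (by intro i; simp only [X]; split_ifs <;> simp [hinv])
      (by intro i; simp only [X]; split_ifs <;> simp [hδ1])
      (by intro i hi; simp [X, hi])
      (by intro i hi; simp [X, hi])
    have e1 : X δ⁻¹ δ ⊔ X 1 1 = X δ⁻¹ 1 := by
      funext i
      simp only [Pi.sup_apply, X]
      split_ifs <;> simp [hinv, hδ1]
    rw [e1] at this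
    rw [hX δ 1 hδ, hX 1 δ one_pos, hX δ δ hδ, hX 1 1 one_pos]
    simp only [one_pow, inv_one, one_mul]
    rw [mul_assoc, mul_assoc]
    exact mul_le_mul_of_nonneg_left this (pow_nonneg hδ.le _)
  have hc1 : Continuous fun δ : ℝ => Φ δ 1 * Φ 1 δ := by
    simp only [Φ]; fun_prop
  have hc2 : Continuous fun δ : ℝ => Φ δ δ * Φ 1 1 := by
    simp only [Φ]; fun_prop
  have hlim : Φ 0 1 * Φ 1 0 ≤ Φ 0 0 * Φ 1 1 := by
    refine le_of_tendsto_of_tendsto (b := 𝓝[>] (0 : ℝ))
      ((hc1.tendsto 0).mono_left nhdsWithin_le_nhds)
      ((hc2.tendsto 0).mono_left nhdsWithin_le_nhds) ?_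
    filter_upwards [Ioc_mem_nhdsGT (zero_lt_one' ℝ)] with δ hδ
    exact hineq δ hδ.1 hδ.2
  have k1 : ∀ A : Finset ι, (0 : ℝ) ^ (B \ A).card = if B ⊆ A then 1 else 0 := by
    intro A
    rw [zero_pow_eq]
    simp [Finset.sdiff_eq_empty_iff_subset]
  have k2 : ∀ A : Finset ι, (0 : ℝ) ^ (A ∩ D).card = if Disjoint A D then 1 else 0 := by
    intro A
    rw [zero_pow_eq]
    simp [Finset.disjoint_iff_inter_eq_empty]
  simp only [Φ, k1, k2, one_pow, mul_one, one_mul] at hlim
  simp only [Finset.sum_filter]
  convert hlim using 3 with A _ A _ A _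
  · split_ifs <;> simp
  · split_ifs <;> simp
  · by_cases h1 : B ⊆ A <;> by_cases h2 : Disjoint A D <;> simp [h1, h2]

end Crest.Agent.Lib.SpanTree
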