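import Mathlib
import Crest.Agent.Lib.SpanTree.MatrixTree
import Crest.Agent.Lib.SpanTree.Stable

/-!
Monotonicity of uniform spanning tree inclusion probabilities in the piece, and their limit along
exhaustions.
-/

set_option autoImplicit false

namespace Crest.Agent.Lib.SpanTree

open Crest.ProbabilityR.SpanningTrees Filter Topology

variable {V : Type*}

open Classical in
/-- Indicator weights of the spanning trees of a piece. -/
noncomputable def treeW (G : SimpleGraph V) (S : Finset V) (A : Finset (Sym2 V)) : ℝ :=
  if IsSpanningTreeOn G S A then 1 else 0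

theorem treeW_nonneg (G : SimpleGraph V) (S : Finset V) (A : Finset (Sym2 V)) :
    0 ≤ treeW G S A := by
  unfold treeW
  split_ifs <;> norm_num

theorem gp_treeW (G : SimpleGraph V) (S : Finset V) (z : Sym2 V → ℂ) :
    gp (edgesIn G S) (treeW G S) z = ∑ A ∈ trees G S, ∏ e ∈ A, z e := by
  classical
  unfold gp trees treeW
  rw [Finset.sum_filter]
  refine Finset.sum_congr rfl fun A _ => ?_
  split_ifs <;> simp

/-- The spanning tree weights of a connected piece are stable. -/
theorem stable_treeW (G : SimpleGraph V) (S : Finset V)
    (hS : (G.induce (S : Set V)).Connected) : Stable (edgesIn G S) (treeW G S) := by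
  intro z hz
  rw [gp_treeW]
  exact treePoly_ne_zero G S hS z hz

theorem sum_treeW (G : SimpleGraph V) (S : Finset V) (p : Finset (Sym2 V) → Prop)
    [DecidablePred p] :
    ∑ A ∈ (edgesIn G S).powerset with p A, treeW G S A = (((trees G S).filter p).card : ℝ) := by
  classical
  unfold trees treeW
  rw [Finset.filter_comm, Finset.card_filter]
  push_cast
  rfl

open Classical in
theorem filter_trees_insert (G : SimpleGraph V) (S : Finset V) (u v : V) (hu : u ∈ S) (hv : v ∉ S)
    (huv : G.Adj v u) :
    (trees G (insert v S)).filter
        (fun A => Disjoint A (edgesIn G (insert v S) \ insert s(v, u) (edgesIn G S))) =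
      (trees G S).image (insert s(v, u)) := by
  have he1 : s(v, u) ∉ edgesIn G S := fun h => hv (mem_edgesIn.1 h).1
  ext A
  simp only [Finset.mem_filter, mem_trees, Finset.mem_image, isSpanningTreeOn_iff]
  constructor
  · rintro ⟨⟨hA, hl, hc⟩, hd⟩
    have hsub : A ⊆ insert s(v, u) (edgesIn G S) := by
      intro e he
      by_contra hne
      exact Finset.disjoint_left.1 hd he (Finset.mem_sdiff.2 ⟨hA he, hne⟩)
    have hmem : s(v, u) ∈ A := by
      by_contra hne
      have := Linked.eq_of_forall (A := A) (fun a => a = v) (by
        intro a b hab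
        rcases Finset.mem_insert.1 (hsub hab) with h | h
        · exact absurd (h ▸ hab) hne
        · obtain ⟨ha, hb, _⟩ := mem_edgesIn.1 h
          have h1 : a ≠ v := fun h' => hv (h' ▸ ha)
          have h2 : b ≠ v := fun h' => hv (h' ▸ hb)
          simp [h1, h2])
        (hl v (Finset.mem_insert_self _ _) u (Finset.mem_insert_of_mem hu))
      simp only [true_iff, eq_iff_iff] at this
      exact hv (this ▸ hu)
    refine ⟨A.erase s(v, u), ⟨?_, ?_, ?_⟩, Finset.insert_erase hmem⟩
    · intro e he
      rcases Finset.mem_insert.1 (hsub (Finset.mem_of_mem_erase he)) with h | h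
      · exact absurd h (Finset.mem_erase.1 he).1
      · exact h
    · let ρ : V → V := fun a => if a = v then u else a
      have key : ∀ a b, Linked A a b → Linked (A.erase s(v, u)) (ρ a) (ρ b) := by
        intro a b hab
        induction hab with
        | refl => exact Linked.refl _ _
        | @tail b c _ hbc ih =>
          refine ih.trans ?_
          by_cases h : s(b, c) = s(v, u)
          · have huv' : u ≠ v := huv.ne'
            rcases Sym2.eq_iff.1 h with ⟨rfl, rfl⟩ | ⟨rfl, rfl⟩
            · simp only [ρ, if_true, if_neg huv']
              exact Linked.refl _ _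
            · simp only [ρ, if_true, if_neg huv']
              exact Linked.refl _ _
          · rcases Finset.mem_insert.1 (hsub hbc) with h' | h'
            · exact absurd h' h
            · obtain ⟨hb, hc, _⟩ := mem_edgesIn.1 h'
              have h1 : b ≠ v := fun h' => hv (h' ▸ hb)
              have h2 : c ≠ v := fun h' => hv (h' ▸ hc)
              simp only [ρ, if_neg h1, if_neg h2]
              exact Linked.single (Finset.mem_erase.2 ⟨h, hbc⟩)
      intro a ha b hb
      have h1 : a ≠ v := fun h' => hv (h' ▸ ha)
      have h2 : b ≠ v := fun h' => hv (h' ▸ hb)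
      have := key a b (hl a (Finset.mem_insert_of_mem ha) b (Finset.mem_insert_of_mem hb))
      simpa only [ρ, if_neg h1, if_neg h2] using this
    · rw [Finset.card_insert_of_notMem hv] at hc
      have := Finset.card_erase_add_one hmem
      omega
  · rintro ⟨T, ⟨hT, hl, hc⟩, rfl⟩
    have hnot : s(v, u) ∉ T := fun h => he1 (hT h)
    refine ⟨⟨?_, ?_, ?_⟩, ?_⟩
    · intro e he
      rcases Finset.mem_insert.1 he with rfl | h
      · exact mem_edgesIn.2 ⟨Finset.mem_insert_self _ _, Finset.mem_insert_of_mem hu, huv⟩
      · exact edgesIn_mono (Finset.subset_insert _ _) (hT h)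
    · have key : ∀ a ∈ insert v S, Linked (insert s(v, u) T) a u := by
        intro a ha
        rcases Finset.mem_insert.1 ha with rfl | h
        · exact Linked.single (Finset.mem_insert_self _ _)
        · exact (hl a h u hu).mono (Finset.subset_insert _ _)
      intro a ha b hb
      exact (key a ha).trans (key b hb).symm
    · rw [Finset.card_insert_of_notMem hv, Finset.card_insert_of_notMem hnot, hc]
    · rw [Finset.disjoint_left]
      intro e he hd
      exact (Finset.mem_sdiff.1 hd).2 (Finset.insert_subset_insert _ hT he)

theorem connected_insert (G : SimpleGraph V) [DecidableEq V] (S : Finset V) (u v : V) (hu : u ∈ S)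
    (huv : G.Adj v u) (hS : (G.induce (S : Set V)).Connected) :
    (G.induce ((insert v S : Finset V) : Set V)).Connected := by
  rw [connected_iff_linked_edgesIn] at hS ⊢
  refine ⟨⟨v, Finset.mem_insert_self _ _⟩, ?_⟩
  have key : ∀ a ∈ insert v S, Linked (edgesIn G (insert v S)) a u := by
    intro a ha
    rcases Finset.mem_insert.1 ha with rfl | h
    · exact Linked.single
        (mem_edgesIn.2 ⟨Finset.mem_insert_self _ _, Finset.mem_insert_of_mem hu, huv⟩)
    · exact (hS.2 a h u hu).mono (edgesIn_mono (Finset.subset_insert _ _))
  intro a ha b hb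
  exact (key a ha).trans (key b hb).symm

open Classical in
theorem ustContains_insert_le (G : SimpleGraph V) (S : Finset V) (u v : V) (hu : u ∈ S)
    (hv : v ∉ S) (huv : G.Adj v u) (hS : (G.induce (S : Set V)).Connected)
    (F : Finset (Sym2 V)) (hF : F ⊆ edgesIn G S) :
    ustContains G (insert v S) F ≤ ustContains G S F := by
  have hS' := connected_insert G S u v hu huv hS
  have he1 : s(v, u) ∉ edgesIn G S := fun h => hv (mem_edgesIn.1 h).1
  set D := edgesIn G (insert v S) \ insert s(v, u) (edgesIn G S) with hD
  have hFD : Disjoint F D := by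
    rw [Finset.disjoint_left]
    intro e he hd
    exact (Finset.mem_sdiff.1 hd).2 (Finset.mem_insert_of_mem (hF he))
  have key := (stable_treeW G (insert v S) hS').neg_assoc (treeW_nonneg G _) F D hFD
  have e0 : ∑ A ∈ (edgesIn G (insert v S)).powerset, treeW G (insert v S) A =
      ((trees G (insert v S)).card : ℝ) := by
    have := sum_treeW G (insert v S) (fun _ => True)
    simpa using this
  have hinj : Set.InjOn (insert s(v, u) : Finset (Sym2 V) → Finset (Sym2 V)) (trees G S) := by
    intro T hT T' hT' h
    have h1 : s(v, u) ∉ T := fun h => he1 ((mem_trees.1 hT).1 h)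
    have h2 : s(v, u) ∉ T' := fun h => he1 ((mem_trees.1 hT').1 h)
    rw [← Finset.erase_insert h1, ← Finset.erase_insert h2, h]
  have e1 : ((trees G (insert v S)).filter (fun A => Disjoint A D)).card = (trees G S).card := by
    rw [hD, filter_trees_insert G S u v hu hv huv, Finset.card_image_of_injOn hinj]
  have e2 : ((trees G (insert v S)).filter (fun A => F ⊆ A ∧ Disjoint A D)).card =
      ((trees G S).filter (fun A => F ⊆ A)).card := by
    have : (trees G (insert v S)).filter (fun A => F ⊆ A ∧ Disjoint A D) =
        ((trees G S).filter (fun A => F ⊆ A)).image (insert s(v, u)) := by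
      rw [← Finset.filter_filter, Finset.filter_comm, hD, filter_trees_insert G S u v hu hv huv,
        Finset.filter_image]
      congr 1
      refine Finset.filter_congr fun T _ => ?_
      have : s(v, u) ∉ F := fun h => he1 (hF h)
      exact Finset.subset_insert_iff_of_notMem this
    rw [this, Finset.card_image_of_injOn (hinj.mono (by
      intro T hT
      exact (Finset.mem_filter.1 hT).1))]
  rw [sum_treeW, sum_treeW, sum_treeW, e0, e1, e2] at key
  rw [ustContains_eq, ustContains_eq, div_le_div_iff₀
    (by exact_mod_cast (trees_nonempty G _ hS').card_pos)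
    (by exact_mod_cast (trees_nonempty G _ hS).card_pos)]
  exact key

theorem exists_adj_of_ssubset (G : SimpleGraph V) {S S' : Finset V} (hne : S.Nonempty)
    (hSS' : S ⊆ S') (hS' : (G.induce (S' : Set V)).Connected) {a : V} (ha : a ∈ S')
    (haS : a ∉ S) : ∃ u ∈ S, ∃ v ∈ S', v ∉ S ∧ G.Adj v u := by
  obtain ⟨r, hr⟩ := hne
  by_contra hcon
  push Not at hcon
  have := Linked.eq_of_forall (A := edgesIn G S') (fun x => x ∈ S) (by
    intro x y hxy
    obtain ⟨hx, hy, hadj⟩ := mem_edgesIn.1 hxy
    apply propext
    constructor
    · intro h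
      by_contra h'
      exact hcon x h y hy h' hadj.symm
    · intro h
      by_contra h'
      exact hcon y h x hx h' hadj)
    ((connected_iff_linked_edgesIn.1 hS').2 r (hSS' hr) a ha)
  simp only [hr, true_iff, eq_iff_iff] at this
  exact haS this

/-- Inclusion probabilities decrease when the connected piece grows. -/
theorem ustContains_anti (G : SimpleGraph V) {S S' : Finset V}
    (hS : (G.induce (S : Set V)).Connected) (hS' : (G.induce (S' : Set V)).Connected)
    (hSS' : S ⊆ S') (F : Finset (Sym2 V)) (hF : F ⊆ edgesIn G S) :
    ustContains G S' F ≤ ustContains G S F := by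
  classical
  obtain ⟨n, hn⟩ : ∃ n, (S' \ S).card = n := ⟨_, rfl⟩
  induction n generalizing S with
  | zero =>
    have : S' ⊆ S := Finset.sdiff_eq_empty_iff_subset.1 (Finset.card_eq_zero.1 hn)
    rw [Finset.Subset.antisymm this hSS']
  | succ n ih =>
    obtain ⟨a, ha⟩ : (S' \ S).Nonempty := Finset.card_pos.1 (by omega)
    rw [Finset.mem_sdiff] at ha
    obtain ⟨u, hu, v, hv, hvS, hadj⟩ := exists_adj_of_ssubset G
      (connected_iff_linked_edgesIn.1 hS).1 hSS' hS' ha.1 ha.2
    have h1 := ih (connected_insert G S u v hu hadj hS) (Finset.insert_subset hv hSS')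
      (hF.trans (edgesIn_mono (Finset.subset_insert _ _))) (by
        rw [Finset.sdiff_insert, Finset.card_erase_of_mem (Finset.mem_sdiff.2 ⟨hv, hvS⟩), hn]
        rfl)
    refine h1.trans ?_
    convert ustContains_insert_le G S u v hu hvS hadj hS F hF

theorem ustContains_nonneg (G : SimpleGraph V) (S : Finset V) (F : Finset (Sym2 V)) :
    0 ≤ ustContains G S F := by
  rw [ustContains_eq]
  positivity

theorem ustContains_le_one (G : SimpleGraph V) (S : Finset V) (F : Finset (Sym2 V)) :
    ustContains G S F ≤ 1 := by
  classical
  rw [ustContains_eq]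
  apply div_le_one_of_le₀
  · exact_mod_cast Finset.card_filter_le _ _
  · positivity

theorem ustContains_eq_zero (G : SimpleGraph V) (S : Finset V) (F : Finset (Sym2 V))
    (hF : ¬ F ⊆ edgesIn G S) : ustContains G S F = 0 := by
  classical
  rw [ustContains_eq, Finset.filter_eq_empty_iff.2]
  · simp
  · intro A hA h
    exact hF (h.trans (mem_trees.1 hA).1)

theorem ustContains_empty (G : SimpleGraph V) (S : Finset V)
    (hS : (G.induce (S : Set V)).Connected) : ustContains G S ∅ = 1 := by
  rw [ustContains_eq]
  simp only [Finset.empty_subset, Finset.filter_true]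
  exact div_self (by exact_mod_cast (trees_nonempty G _ hS).card_pos.ne')

theorem eventually_subset_of_exhaustion {S : ℕ → Finset V} (hmono : Monotone S)
    (hex : ∀ v, ∃ n, v ∈ S n) (K : Finset V) : ∀ᶠ n in atTop, K ⊆ S n := by
  have : ∀ v ∈ K, ∀ᶠ n in atTop, v ∈ S n := by
    intro v _
    obtain ⟨n, hn⟩ := hex v
    filter_upwards [eventually_ge_atTop n] with m hm using hmono hm hn
  filter_upwards [(Filter.eventually_all_finset K).2 this] with n hn using fun v hv => hn v hv

theorem eventually_subset_edgesIn (G : SimpleGraph V) {S : ℕ → Finset V} (hmono : Monotone S)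
    (hex : ∀ v, ∃ n, v ∈ S n) (F : Finset (Sym2 V)) (hF : (F : Set (Sym2 V)) ⊆ G.edgeSet) :
    ∀ᶠ n in atTop, F ⊆ edgesIn G (S n) := by
  have : ∀ e ∈ F, ∀ᶠ n in atTop, e ∈ edgesIn G (S n) := by
    intro e he
    induction e using Sym2.ind with
    | _ a b =>
      obtain ⟨n, hn⟩ := hex a
      obtain ⟨m, hm⟩ := hex b
      filter_upwards [eventually_ge_atTop n, eventually_ge_atTop m] with k h1 h2
      exact mem_edgesIn.2 ⟨hmono h1 hn, hmono h2 hm, by simpa using hF he⟩
  filter_upwards [(Filter.eventually_all_finset F).2 this] with n hn using fun e he => hn e he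

open Classical in
/-- The free-forest inclusion probability of `F`, defined without choosing an exhaustion:
the infimum over connected finite pieces containing `F` (and `0` when `F` is not an edge set). -/
noncomputable def fusf (G : SimpleGraph V) (F : Finset (Sym2 V)) : ℝ :=
  if (F : Set (Sym2 V)) ⊆ G.edgeSet then
    ⨅ S : Finset V, if (G.induce (S : Set V)).Connected ∧ F ⊆ edgesIn G S then ustContains G S F
      else 1
  else 0

/-- Along every exhaustion by connected pieces the inclusion probability of any finite set of
pairs tends to `fusf G F`. -/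
theorem tendsto_ustContains (G : SimpleGraph V) {S : ℕ → Finset V} (hmono : Monotone S)
    (hex : ∀ v, ∃ n, v ∈ S n) (hconn : ∀ n, (G.induce (S n : Set V)).Connected)
    (F : Finset (Sym2 V)) :
    Tendsto (fun n => ustContains G (S n) F) atTop (𝓝 (fusf G F)) := by
  classical
  unfold fusf
  split_ifs with hF
  · set g : Finset V → ℝ := fun K =>
      if (G.induce (K : Set V)).Connected ∧ F ⊆ edgesIn G K then ustContains G K F else 1 with hg
    have hbdd : BddBelow (Set.range g) := by
      refine ⟨0, ?_⟩
      rintro _ ⟨K, rfl⟩
      simp only [hg]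
      split_ifs
      · exact ustContains_nonneg _ _ _
      · norm_num
    rw [tendsto_order]
    constructor
    · intro a ha
      filter_upwards [eventually_subset_edgesIn G hmono hex F hF] with n hn
      refine ha.trans_le ((ciInf_le hbdd (S n)).trans ?_)
      simp only [hg]
      rw [if_pos ⟨hconn n, hn⟩]
    · intro a ha
      obtain ⟨K, hK⟩ := exists_lt_of_ciInf_lt ha
      filter_upwards [eventually_subset_of_exhaustion hmono hex K] with n hn
      refine lt_of_le_of_lt ?_ hK
      simp only [hg]
      split_ifs with h
      · exact ustContains_anti G h.1 (hconn n) hn F h.2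
      · exact ustContains_le_one _ _ _
  · have : ∀ n, ustContains G (S n) F = 0 := by
      intro n
      apply ustContains_eq_zero
      intro h
      apply hF
      intro e he
      have := h he
      induction e using Sym2.ind with
      | _ a b => exact (mem_edgesIn.1 this).2.2
    simp only [this]
    exact tendsto_const_nhds

end Crest.Agent.Lib.SpanTree
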